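import Vale.Agent.Lib.P195.Defs

universe u

open CategoryTheory Abelian

namespace Vale.Agent.Lib.P195

section general

variable {C : Type*} [Category C] [Abelian C] [HasExt C]

theorem subsingleton_ext_of_retract_right {X Y Z : C} (n : ℕ) (i : Z ⟶ Y) (p : Y ⟶ Z)
    (hip : i ≫ p = 𝟙 Z) (h : Subsingleton (Ext X Y n)) : Subsingleton (Ext X Z n) := by
  refine ⟨fun x y => ?_⟩
  have key : ∀ x : Ext X Z n, x = 0 := by
    intro x
    have h1 : x = (x.comp (Ext.mk₀ i) (add_zero n)).comp (Ext.mk₀ p) (add_zero n) := by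
      rw [Ext.comp_assoc_of_third_deg_zero, Ext.mk₀_comp_mk₀, hip, Ext.comp_mk₀_id]
    rw [h1, Subsingleton.elim (x.comp (Ext.mk₀ i) (add_zero n)) 0, Ext.zero_comp]
  rw [key x, key y]

theorem subsingleton_ext_of_retract_left {X Y Z : C} (n : ℕ) (i : Z ⟶ X) (p : X ⟶ Z)
    (hip : i ≫ p = 𝟙 Z) (h : Subsingleton (Ext X Y n)) : Subsingleton (Ext Z Y n) := by
  refine ⟨fun x y => ?_⟩
  have key : ∀ x : Ext Z Y n, x = 0 := by
    intro x
    have h1 : x = (Ext.mk₀ i).comp ((Ext.mk₀ p).comp x (zero_add n)) (zero_add n) := by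
      rw [Ext.mk₀_comp_mk₀_assoc, hip, Ext.mk₀_id_comp]
    rw [h1, Subsingleton.elim ((Ext.mk₀ p).comp x (zero_add n)) 0, Ext.comp_zero]
  rw [key x, key y]

/-- Dimension shift in the first variable. -/
theorem subsingleton_ext_X₁_left {S : ShortComplex C} (hS : S.ShortExact) [Projective S.X₂]
    (Y : C) (i : ℕ) (h : Subsingleton (Ext S.X₃ Y (i + 2))) : Subsingleton (Ext S.X₁ Y (i + 1)) := by
  refine ⟨fun x y => ?_⟩
  have key : ∀ x : Ext S.X₁ Y (i + 1), x = 0 := by
    intro x
    obtain ⟨x₂, hx₂⟩ := Ext.contravariant_sequence_exact₁ hS Y x (n₁ := i + 2) (by omega)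
      (Subsingleton.elim _ _)
    rw [← hx₂, Ext.eq_zero_of_projective x₂, Ext.comp_zero]
  rw [key x, key y]

/-- Dimension shift in the second variable. -/
theorem subsingleton_ext_X₁_right (X : C) {S : ShortComplex C} (hS : S.ShortExact) (j : ℕ)
    (h3 : Subsingleton (Ext X S.X₃ j)) (h2 : Subsingleton (Ext X S.X₂ (j + 1))) :
    Subsingleton (Ext X S.X₁ (j + 1)) := by
  refine ⟨fun x y => ?_⟩
  have key : ∀ x : Ext X S.X₁ (j + 1), x = 0 := by
    intro x
    obtain ⟨x₃, hx₃⟩ := Ext.covariant_sequence_exact₁ X hS x (Subsingleton.elim _ _) (n₀ := j) rfl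
    rw [← hx₃, Subsingleton.elim x₃ 0, Ext.zero_comp]
  rw [key x, key y]

/-- If the kernel term is projective-like in the sense that `Ext^1(X₃, X₁) = 0`, and the
middle term is projective, then `X₃` is projective. -/
theorem projective_X₃ {S : ShortComplex C} (hS : S.ShortExact) [Projective S.X₂]
    (h : Subsingleton (Ext S.X₃ S.X₁ 1)) : Projective S.X₃ := by
  rw [projective_iff_subsingleton_ext_one]
  intro Y
  refine ⟨fun x y => ?_⟩
  have key : ∀ x : Ext S.X₃ Y 1, x = 0 := by
    intro x
    obtain ⟨x₁, hx₁⟩ := Ext.contravariant_sequence_exact₃ hS Y x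
      (Ext.eq_zero_of_projective _) (n₀ := 0) (by rfl)
    rw [← hx₁, Subsingleton.elim hS.extClass 0, Ext.zero_comp]
  rw [key x, key y]

end general

variable {R : Type u} [CommRing R]

/-- If `I` is generated by an idempotent then `R ⧸ I` is projective. -/
theorem projective_quot_of_idempotent (I : Ideal R) (e : R) (he : IsIdempotentElem e)
    (hI : I = Ideal.span {e}) : Module.Projective R (R ⧸ I) := by
  have hker : I ≤ LinearMap.ker (LinearMap.mulRight R (1 - e)) := by
    rw [hI, Ideal.span_le]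
    intro x hx
    rw [Set.mem_singleton_iff] at hx
    subst hx
    simp only [SetLike.mem_coe, LinearMap.mem_ker, LinearMap.mulRight_apply]
    rw [mul_sub, mul_one, he.eq, sub_self]
  let i : R ⧸ I →ₗ[R] R := Submodule.liftQ I (LinearMap.mulRight R (1 - e)) hker
  refine Module.Projective.of_split i (Submodule.mkQ I) ?_
  apply LinearMap.ext
  intro x
  obtain ⟨r, rfl⟩ := Submodule.mkQ_surjective I x
  have h1 : i (Submodule.mkQ I r) = r * (1 - e) := Submodule.liftQ_apply I _ r
  rw [LinearMap.comp_apply, h1, LinearMap.id_apply]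
  rw [mul_sub, mul_one, map_sub]
  have : Submodule.mkQ I (r * e) = 0 := by
    rw [Submodule.mkQ_apply, Submodule.Quotient.mk_eq_zero, hI]
    exact Ideal.mul_mem_left _ _ (Ideal.subset_span rfl)
  rw [this, sub_zero]

/-- Over a commutative Artinian ring, if every linear map `I → R ⧸ I` vanishes then `I` is
generated by an idempotent. -/
theorem idempotent_of_hom_eq_zero [IsArtinianRing R] (I : Ideal R)
    (h : ∀ φ : I →ₗ[R] R ⧸ I, φ = 0) : ∃ e : R, IsIdempotentElem e ∧ I = Ideal.span {e} := by
  have hfg : I.FG := (isNoetherianRing_iff_ideal_fg R).mp inferInstance I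
  suffices hid : IsIdempotentElem I from (Ideal.isIdempotentElem_iff_of_fg I hfg).mp hid
  by_contra hne
  -- the submodule `I • ⊤` of `I` is proper
  have hlt : (I • (⊤ : Submodule R I)) ≠ ⊤ := by
    intro htop
    apply hne
    have : Submodule.map I.subtype (I • (⊤ : Submodule R I)) = I * I := by
      rw [Submodule.map_smul'', Submodule.map_top, Submodule.range_subtype, smul_eq_mul]
    rw [htop, Submodule.map_top, Submodule.range_subtype] at this
    exact this.symm
  -- a maximal submodule above it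
  have : Module.Finite R I := Module.Finite.iff_fg.mpr hfg
  obtain ⟨N, hN, hle⟩ := (eq_top_or_exists_le_coatom (I • (⊤ : Submodule R I))).resolve_left hlt
  have : IsSimpleModule R (I ⧸ N) := isSimpleModule_iff_isCoatom.mpr hN
  obtain ⟨m, hm, ⟨eq⟩⟩ := isSimpleModule_iff_quot_maximal.mp (inferInstance : IsSimpleModule R (I ⧸ N))
  let ψ : I →ₗ[R] R ⧸ m := eq.toLinearMap ∘ₗ N.mkQ
  have hψsurj : Function.Surjective ψ := eq.surjective.comp (Submodule.mkQ_surjective N)
  have hψker : ∀ (a : R) (x : I), a ∈ I → ψ (a • x) = 0 := by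
    intro a x ha
    have : a • x ∈ N := hle (Submodule.smul_mem_smul ha Submodule.mem_top)
    simp only [ψ, LinearMap.comp_apply, Submodule.mkQ_apply]
    rw [(Submodule.Quotient.mk_eq_zero N).mpr this, map_zero]
  have hIm : I ≤ m := by
    intro a ha
    obtain ⟨x, hx⟩ := hψsurj (Submodule.mkQ m 1)
    have h0 := hψker a x ha
    rw [map_smul, hx, ← map_smul, smul_eq_mul, mul_one] at h0
    exact (Submodule.Quotient.mk_eq_zero m).mp h0
  -- `m` is an associated prime of `R ⧸ I`
  have hmin : m ∈ (Module.annihilator R (R ⧸ I)).minimalPrimes := by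
    rw [Ideal.annihilator_quotient]
    refine ⟨⟨hm.isPrime, hIm⟩, ?_⟩
    rintro q ⟨hq, _⟩ hqm
    have := hq
    exact ((IsArtinianRing.isMaximal_of_isPrime q).eq_of_le hm.ne_top hqm).ge
  have hass := Module.associatedPrimes.minimalPrimes_annihilator_subset_associatedPrimes R (R ⧸ I) hmin
  obtain ⟨_, s, hs⟩ := (isAssociatedPrime_iff).mp hass
  have hms : ∀ a ∈ m, a • s = 0 := by
    intro a ha
    rw [hs] at ha
    simpa [Submodule.mem_colon_singleton] using ha
  let ι : R ⧸ m →ₗ[R] R ⧸ I := Submodule.liftQ m (LinearMap.toSpanSingleton R (R ⧸ I) s)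
    (fun a ha => by simpa [LinearMap.mem_ker] using hms a ha)
  have hφ := h (ι ∘ₗ ψ)
  obtain ⟨x, hx⟩ := hψsurj (Submodule.mkQ m 1)
  have h1 := congrArg (fun φ => φ x) hφ
  simp only [LinearMap.comp_apply, LinearMap.zero_apply, hx] at h1
  have h2 : ι (Submodule.mkQ m 1) = s := (Submodule.liftQ_apply m _ 1).trans (by simp)
  rw [h2] at h1
  apply hm.ne_top
  rw [hs, h1]
  ext a
  simp [Submodule.mem_colon_singleton]

theorem subsingleton_ext_pi (X : ModuleCat.{u} R) (m n : ℕ)
    (h : Subsingleton (Ext X (ModuleCat.of R R) n)) :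
    Subsingleton (Ext X (ModuleCat.of R (Fin m → R)) n) := by
  refine ⟨fun x y => ?_⟩
  have key : ∀ x : Ext X (ModuleCat.of R (Fin m → R)) n, x = 0 := by
    intro x
    have hid : 𝟙 (ModuleCat.of R (Fin m → R)) =
        ∑ j : Fin m, (ModuleCat.ofHom (LinearMap.proj j : (Fin m → R) →ₗ[R] R) ≫
          ModuleCat.ofHom (LinearMap.single R (fun _ : Fin m => R) j)) := by
      ext v
      simp [ModuleCat.hom_sum]
    rw [← Ext.comp_mk₀_id x, hid, Ext.mk₀_sum, Ext.comp_sum]
    apply Finset.sum_eq_zero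
    intro j _
    rw [← Ext.mk₀_comp_mk₀, ← Ext.comp_assoc_of_third_deg_zero,
      Subsingleton.elim (x.comp (Ext.mk₀ (ModuleCat.ofHom (LinearMap.proj j))) (add_zero n)) 0,
      Ext.zero_comp]
  rw [key x, key y]

theorem exists_extension {F M N : Type u} [AddCommGroup F] [Module R F]
    [AddCommGroup M] [Module R M] [AddCommGroup N] [Module R N]
    (f : F →ₗ[R] M) (hf : Function.Surjective f)
    (h : Subsingleton (Ext (ModuleCat.of R M) (ModuleCat.of R N) 1))
    (φ : LinearMap.ker f →ₗ[R] N) : ∃ g : F →ₗ[R] N, ∀ x : LinearMap.ker f, g x = φ x := by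
  have hS := LinearMap.shortExact_shortComplexKer hf
  obtain ⟨x₂, hx₂⟩ := Ext.contravariant_sequence_exact₁ hS (ModuleCat.of R N)
    (Ext.mk₀ (ModuleCat.ofHom φ)) (n₁ := 1) (by rfl) (Subsingleton.elim _ _)
  obtain ⟨g, rfl⟩ := (Ext.mk₀_bijective _ _).2 x₂
  rw [Ext.mk₀_comp_mk₀] at hx₂
  have := (Ext.mk₀_bijective _ _).1 hx₂
  refine ⟨g.hom, fun x => ?_⟩
  have h2 := congrArg (fun k => k.hom x) this
  simpa using h2

/-- A finitely generated projective module `P`: if `Ext^n(X, R) = 0` then `Ext^n(X, P) = 0`. -/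
theorem subsingleton_ext_fg_projective (X : ModuleCat.{u} R) (P : Type u) [AddCommGroup P]
    [Module R P] [Module.Finite R P] [Module.Projective R P] (n : ℕ)
    (h : Subsingleton (Ext X (ModuleCat.of R R) n)) :
    Subsingleton (Ext X (ModuleCat.of R P) n) := by
  obtain ⟨m, f, g, -, -, hfg⟩ := Module.Finite.exists_comp_eq_id_of_projective R P
  refine subsingleton_ext_of_retract_right n (ModuleCat.ofHom g) (ModuleCat.ofHom f) ?_
    (subsingleton_ext_pi X m n h)
  rw [← ModuleCat.ofHom_comp, hfg]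
  rfl

/-- Over a commutative Artinian ring, a cyclic module `R ⧸ I` without self-extensions of
degree one is projective. -/
theorem projective_quot_of_ext [IsArtinianRing R] (I : Ideal R)
    (h : Subsingleton (Ext (ModuleCat.of R (R ⧸ I)) (ModuleCat.of R (R ⧸ I)) 1)) :
    Module.Projective R (R ⧸ I) := by
  obtain ⟨e, he, hI⟩ := idempotent_of_hom_eq_zero I (fun φ => by
    have hker : LinearMap.ker (Submodule.mkQ I) = I := Submodule.ker_mkQ I
    let eqv : I ≃ₗ[R] LinearMap.ker (Submodule.mkQ I) := LinearEquiv.ofEq _ _ hker.symm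
    obtain ⟨g, hg⟩ := exists_extension (Submodule.mkQ I) (Submodule.mkQ_surjective I) h
      (φ ∘ₗ eqv.symm.toLinearMap)
    apply LinearMap.ext
    intro x
    have h1 := hg (eqv x)
    simp only [LinearMap.comp_apply, LinearEquiv.coe_coe, LinearEquiv.symm_apply_apply] at h1
    rw [← h1, LinearMap.zero_apply]
    have h2 : ((eqv x : LinearMap.ker (Submodule.mkQ I)) : R) = (x : R) := rfl
    rw [h2]
    have h3 : g (x : R) = (x : R) • g 1 := by
      rw [← map_smul, smul_eq_mul, mul_one]
    rw [h3]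
    obtain ⟨r, hr⟩ := Submodule.mkQ_surjective I (g 1)
    rw [← hr, ← map_smul, Submodule.mkQ_apply, Submodule.Quotient.mk_eq_zero, smul_eq_mul]
    exact Ideal.mul_mem_right _ _ x.2)
  exact projective_quot_of_idempotent I e he hI

/-- Over a commutative Artinian ring, a finite direct product of cyclic modules without
self-extensions of degree one is projective. -/
theorem projective_of_equiv_pi_quot [IsArtinianRing R] (m : ℕ) (I : Fin m → Ideal R)
    (M : ModuleCat.{u} R) (e : M ≃ₗ[R] ((j : Fin m) → R ⧸ I j))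
    (h1 : Subsingleton (Ext M M 1)) : Module.Projective R M := by
  have hj : ∀ j : Fin m, Module.Projective R (R ⧸ I j) := by
    intro j
    let i : ModuleCat.of R (R ⧸ I j) ⟶ M :=
      ModuleCat.ofHom (e.symm.toLinearMap ∘ₗ LinearMap.single R (fun j => R ⧸ I j) j)
    let p : M ⟶ ModuleCat.of R (R ⧸ I j) :=
      ModuleCat.ofHom ((LinearMap.proj j : ((j : Fin m) → R ⧸ I j) →ₗ[R] R ⧸ I j) ∘ₗ
        e.toLinearMap)
    have hip : i ≫ p = 𝟙 _ := by
      ext
      simp [i, p]
    have h2 : Subsingleton (Ext (ModuleCat.of R (R ⧸ I j)) M 1) :=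
      subsingleton_ext_of_retract_left 1 i p hip h1
    have h3 : Subsingleton (Ext (ModuleCat.of R (R ⧸ I j)) (ModuleCat.of R (R ⧸ I j)) 1) :=
      subsingleton_ext_of_retract_right 1 i p hip h2
    exact projective_quot_of_ext (I j) h3
  have : Module.Projective R ((j : Fin m) → R ⧸ I j) :=
    Module.Projective.of_equiv (DFinsupp.linearEquivFunOnFintype (R := R)
      (M := fun j : Fin m => R ⧸ I j))
  exact Module.Projective.of_equiv e.symm

theorem projective_of_cyclicSyzygy [IsArtinianRing R] (n : ℕ) (M : ModuleCat.{u} R)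
    (h : CyclicSyzygy R n M)
    (hM : ∀ i : ℕ, 1 ≤ i → i ≤ n + 1 →
      Subsingleton (Ext M M i) ∧ Subsingleton (Ext M (ModuleCat.of R R) i)) :
    Module.Projective R M := by
  induction h with
  | base m I M e =>
    exact projective_of_equiv_pi_quot m I M e (hM 1 le_rfl (by omega)).1
  | step n P M hfin hproj f hf h ih =>
    have hS := LinearMap.shortExact_shortComplexKer hf
    have hP : Projective (f.shortComplexKer).X₂ := (IsProjective.iff_projective _).mp hproj
    have hK : Module.Projective R (LinearMap.ker f) := by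
      apply ih
      intro i hi1 hi2
      obtain ⟨i', rfl⟩ : ∃ i', i = i' + 1 := ⟨i - 1, by omega⟩
      have hR : Subsingleton (Ext (ModuleCat.of R (LinearMap.ker f)) (ModuleCat.of R R) (i' + 1)) :=
        subsingleton_ext_X₁_left hS (ModuleCat.of R R) i' (hM (i' + 2) (by omega) (by omega)).2
      have h2 : Subsingleton (Ext M (ModuleCat.of R P) (i' + 2)) :=
        subsingleton_ext_fg_projective M P (i' + 2) (hM (i' + 2) (by omega) (by omega)).2
      have h3 : Subsingleton (Ext M (ModuleCat.of R (LinearMap.ker f)) (i' + 2)) :=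
        subsingleton_ext_X₁_right M hS (i' + 1) (hM (i' + 1) (by omega) (by omega)).1 h2
      exact ⟨subsingleton_ext_X₁_left hS (ModuleCat.of R (LinearMap.ker f)) i' h3, hR⟩
    have : IsNoetherian R P := isNoetherian_of_isNoetherianRing_of_finite R P
    have hfinK : Module.Finite R (LinearMap.ker f) := inferInstance
    have h1 : Subsingleton (Ext M (ModuleCat.of R (LinearMap.ker f)) 1) :=
      subsingleton_ext_fg_projective M (LinearMap.ker f) 1 (hM 1 le_rfl (by omega)).2
    have := projective_X₃ hS h1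
    exact (IsProjective.iff_projective _).mpr this

end Vale.Agent.Lib.P195
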