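import Mathlib

universe u

namespace Vale.Agent.Lib.P195

/-- `CyclicSyzygy R n M`: the module `M` has an `n`-th syzygy, with respect to some partial
resolution by finitely generated projective modules, that is isomorphic to a finite direct
product of cyclic modules `R ⧸ I`. -/
inductive CyclicSyzygy (R : Type u) [CommRing R] : ℕ → ModuleCat.{u} R → Prop
  | base (m : ℕ) (I : Fin m → Ideal R) (M : ModuleCat.{u} R)
      (e : M ≃ₗ[R] ((j : Fin m) → R ⧸ I j)) : CyclicSyzygy R 0 M
  | step (n : ℕ) (P M : ModuleCat.{u} R) (hfin : Module.Finite R P)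
      (hproj : Module.Projective R P) (f : P →ₗ[R] M) (hf : Function.Surjective f)
      (h : CyclicSyzygy R n (ModuleCat.of R (LinearMap.ker f))) : CyclicSyzygy R (n + 1) M

end Vale.Agent.Lib.P195
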